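import Vale.Agent.N330.Game

open Vale.Agent.P330 Vale.Agent.N330 Vale.Agent.Lib.NP in
/-- Beyond the quasi-linear PCP-for-PPAD theorem: (1) one reduction, to circuits of fan-out four,
works for every `ε < 1 / 6`; (2) the form for bipartite polymatrix games of degree three with two
actions per player. -/
theorem Vale.Agent.Results.P330.A0Polymatrix.result :
    (∃ (δ : ℝ) (c : ℕ) (R : EOL → GCirc) (D : EOL × List ℚ≥0 → List Bool), 0 < δ ∧ δ < 1 ∧
      (∀ I : EOL, (R I).code.length ≤ I.code.length * Nat.log 2 I.code.length ^ c) ∧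
      (∀ (I : EOL) (v : ℕ), (R I).gates.countP (fun g => decide (v ∈ g.ins)) ≤ 4) ∧
      ∀ ε : ℝ, 0 < ε → ε < 1 / 6 → (∃ p, Reduces ε δ p R D) ∧
        ∀ q I x, (R I).Acceptable ε δ q x → I.Solution (D (I, x))) ∧
    ∃ (δ : ℝ) (c : ℕ) (R : EOL → Game) (D : EOL × List ℚ≥0 → List Bool), 0 < δ ∧ δ < 1 ∧
      PolyTime EOL.code Game.code R ∧ PolyTime (fun q => pairW q.1.code (ratsW q.2)) id D ∧
      (∀ I : EOL, (R I).code.length ≤ I.code.length * Nat.log 2 I.code.length ^ c) ∧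
      (∀ ε : ℝ, 0 < ε → ∃ p : Polynomial ℕ, ∀ I, ∃ x, (R I).Most 0 ((R I).Happy ε) x ∧
        (R I).Most 0 ((R I).Supp ε) x ∧ (ratsW x).length ≤ p.eval (R I).code.length) ∧
      (∀ I x, (R I).Most δ ((R I).Happy (1 / 20)) x → I.Solution (D (I, x))) ∧
      ∀ ε : ℝ, ε < 1 / 3 → ∀ I x, (R I).Most δ ((R I).Supp ε) x → I.Solution (D (I, x)) :=
  ⟨circGoal, gameGoal⟩
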